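import Claimed.Agent.R314.C.Defs
import Claimed.Agent.R315.Pack006
import Claimed.Agent.R316.Base.RGeo.Pull

/-!
# Row 314, block C, package GEO, file `Chart` (helper59): the chart data `rgeo g ψ U`

* `geo_isRiemC`  : for a metric matrix `G` on `U` (`rm_Met G U`) the triple `⟨U, if_bil ∘ G, if_Gam G⟩` is `IsRiem`;
* `geo_rgeo_isRiem` : GEO-1.
-/

set_option autoImplicit false
set_option maxSynthPendingDepth 6
set_option linter.unusedSectionVars false
open scoped ContDiff Topology
open Set Claims.C0499 Claimed.Agent.R315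

namespace Claimed.Agent.R314

variable {d : ℕ}

/-- the chart data of a metric matrix. -/
noncomputable def geoM (G : rm_MF d) (U : Set (E d)) : R316.RGeo (E d) where
  U := U
  G := fun u => if_bil (G u)
  Γ := if_Gam G

theorem geo_metC {G : rm_MF d} {U : Set (E d)} (h : rm_Met G U) : if_MetC U G :=
  ⟨h.opn, h.smooth, h.pos⟩

theorem geo_bil_smooth {G : rm_MF d} {U : Set (E d)} (h : rm_Met G U) :
    ContDiffOn ℝ ∞ (fun u => if_bil (G u)) U := by
  unfold if_bil
  exact ContDiffOn.sum fun i _ => ContDiffOn.sum fun j _ => (h.smooth i j).smul contDiffOn_const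

theorem geo_Gam_smooth {G : rm_MF d} {U : Set (E d)} (h : rm_Met G U) :
    ContDiffOn ℝ ∞ (if_Gam G) U := by
  unfold if_Gam if_tri
  exact ContDiffOn.sum fun k _ => ContDiffOn.sum fun i _ => ContDiffOn.sum fun j _ =>
    (rm_christoffel_smooth h k i j).smul contDiffOn_const

theorem geo_bil_pos {A : Matrix (Fin d) (Fin d) ℝ} (hA : A.PosDef) {a : E d} (ha : a ≠ 0) :
    0 < if_bil A a a := by
  rw [if_bil_eq_dot]
  have ha' : (fun i => a i) ≠ (0 : Fin d → ℝ) := by
    intro h
    apply ha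
    ext i
    exact congrFun h i
  have := hA.dotProduct_mulVec_pos ha'
  simpa using this

theorem geo_Gam_symm {G : rm_MF d} {U : Set (E d)} (h : rm_Met G U) {x : E d} (hx : x ∈ U)
    (a b : E d) : if_Gam G x a b = if_Gam G x b a := by
  ext l
  rw [if_Gam_apply, if_Gam_apply, Finset.sum_comm]
  exact Finset.sum_congr rfl fun i _ => Finset.sum_congr rfl fun j _ => by
    rw [rm_christoffel_symm h hx l j i]; ring

theorem geo_isRiemC {G : rm_MF d} {U : Set (E d)} (h : rm_Met G U) : (geoM G U).IsRiem where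
  isOpen := h.opn
  G_smooth := geo_bil_smooth h
  Γ_smooth := geo_Gam_smooth h
  G_symm := fun x hx a b => if_bil_symm ((geo_metC h).isSymm hx) a b
  G_pos := fun x hx a ha => geo_bil_pos (h.pos x hx) ha
  Γ_symm := fun x hx a b => geo_Gam_symm h hx a b
  compat := fun x hx a b c => by
    have hLC := (geo_metC h).LC hx
    have hs : ∀ X Y Z : E d, fderiv ℝ (fun u => if_bil (G u)) x X Y Z =
        fderiv ℝ (fun u => if_bil (G u)) x X Z Y := by
      intro X Y Z
      rw [if_bil_fderiv ((geo_metC h).diff hx)]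
      refine if_bil_symm ?_ Y Z
      ext i j
      simp only [Matrix.transpose_apply, Matrix.of_apply]
      have : (fun u => G u j i) =ᶠ[𝓝 x] fun u => G u i j := by
        filter_upwards [h.opn.mem_nhds hx] with u hu
        exact ((geo_metC h).isSymm hu).apply i j
      rw [this.fderiv_eq]
    show fderiv ℝ (fun u => if_bil (G u)) x a b c =
      if_bil (G x) (if_Gam G x a b) c + if_bil (G x) b (if_Gam G x a c)
    rw [if_bil_symm ((geo_metC h).isSymm hx) b (if_Gam G x a c), hLC a b c, hLC a c b,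
      hs a c b, hs c a b, hs b a c]
    ring

variable {V : Type} [NormedAddCommGroup V] [NormedSpace ℝ V]
variable {n : ℕ} {X : Set V} {g : Ten V}

theorem geo_met (hg : IsMetricOn n X g) {ψ : E n → V} {U : Set (E n)} (hp : IsParam X ψ U) :
    rm_Met (cm g ψ) U := ⟨if_open hp, (hg ψ U hp).1, (hg ψ U hp).2⟩

/-- **GEO-1** -/
theorem geo_rgeo_isRiem (hg : IsMetricOn n X g) {ψ : E n → V} {U : Set (E n)}
    (hp : IsParam X ψ U) : (rgeo g ψ U).IsRiem :=
  geo_isRiemC (geo_met hg hp)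

/-! ## transition maps are isometries of the chart data -/

section tr

variable [FiniteDimensional ℝ V] {ψ ψ' : E n → V} {U U' : Set (E n)}

theorem geo_tr_isInvertible (h : IsParam X ψ U) (h' : IsParam X ψ' U') {u : E n}
    (hu : u ∈ if_trDom ψ U ψ' U') : (fderiv ℝ (if_tr ψ' U' ψ) u).IsInvertible := by
  have h1 := if_fderiv_tr_comp h h' hu
  have h2 := if_fderiv_tr_comp h' h (if_tr_mapsTo hu)
  rw [if_tr_tr h hu] at h2
  refine ⟨ContinuousLinearEquiv.equivOfInverse (fderiv ℝ (if_tr ψ' U' ψ) u)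
    (fderiv ℝ (if_tr ψ U ψ') (if_tr ψ' U' ψ u)) (fun x => ?_) (fun x => ?_), rfl⟩
  · exact congrArg (fun L : E n →L[ℝ] E n => L x) h1
  · exact congrArg (fun L : E n →L[ℝ] E n => L x) h2

/-- the transition map `(ψ')⁻¹ ∘ ψ` is a local isometry of the chart data. -/
theorem geo_isIsom_tr (g : Ten V) (h : IsParam X ψ U) (h' : IsParam X ψ' U') :
    R316.RGeo.IsIsom (rgeo g ψ (if_trDom ψ U ψ' U')) (rgeo g ψ' U') (if_tr ψ' U' ψ) where
  smooth := if_tr_contDiffOn h h'
  mapsTo := fun _ hx => if_tr_mem hx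
  inv := fun _ hx => geo_tr_isInvertible h h' hx
  isom := fun x hx a b => by
    show if_bil (cm g ψ x) a b = if_bil (cm g ψ' (if_tr ψ' U' ψ x))
      (fderiv ℝ (if_tr ψ' U' ψ) x a) (fderiv ℝ (if_tr ψ' U' ψ) x b)
    rw [if_cm_bil, if_cm_bil, if_tr_spec hx, if_fderiv_eq h h' hx]
    rfl

theorem geo_isRiem_trDom (hg : IsMetricOn n X g) (h : IsParam X ψ U) (h' : IsParam X ψ' U') :
    (rgeo g ψ (if_trDom ψ U ψ' U')).IsRiem :=
  geo_rgeo_isRiem hg (if_mono h (if_isOpen_trDom h h') if_trDom_subset)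

/-- coordinates of a tangent vector in two parametrisations. -/
theorem geo_tr_vec (h : IsParam X ψ U) (h' : IsParam X ψ' U') {u u' : E n} (hu : u ∈ U)
    (hu' : u' ∈ U') (he : ψ u = ψ' u') {A A' : E n} (hA : fderiv ℝ ψ u A = fderiv ℝ ψ' u' A') :
    fderiv ℝ (if_tr ψ' U' ψ) u A = A' := by
  have hT := if_mem_trDom hu hu' he
  have e := if_tr_eq h' hu' he
  apply if_imm h' hu'
  rw [← hA, if_fderiv_eq h h' hT, e]
  rfl

/-- **GEO-2** invariance of the sectional curvature numerator. -/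
theorem geo_secA_eq (hg : IsMetricOn n X g) (hp : IsParam X ψ U) {u : E n} (hu : u ∈ U)
    (A B : E n) :
    secA n X g (ψ u) (fderiv ℝ ψ u A) (fderiv ℝ ψ u B) = (rgeo g ψ U).secNum u A B := by
  unfold secA
  have : {r | ∃ (ψ' : E n → V) (U' : Set (E n)) (u' A' B' : E n), IsParam X ψ' U' ∧ u' ∈ U' ∧
      ψ' u' = ψ u ∧ fderiv ℝ ψ' u' A' = fderiv ℝ ψ u A ∧ fderiv ℝ ψ' u' B' = fderiv ℝ ψ u B ∧
      r = (rgeo g ψ' U').secNum u' A' B'} = {(rgeo g ψ U).secNum u A B} := by
    ext r
    constructor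
    · rintro ⟨ψ', U', u', A', B', hp', hu', he, hA, hB, rfl⟩
      have hT := if_mem_trDom hu' hu he
      have h1 := (geo_isIsom_tr g hp' hp).secNum (geo_isRiem_trDom hg hp' hp)
        (geo_rgeo_isRiem hg hp) hT A' B'
      rw [if_tr_eq hp hu he, geo_tr_vec hp' hp hu' hu he hA, geo_tr_vec hp' hp hu' hu he hB] at h1
      exact h1.symm
    · rintro rfl
      exact ⟨ψ, U, u, A, B, hp, hu, rfl, rfl, rfl, rfl⟩
  rw [this, csSup_singleton]

end tr

end Claimed.Agent.R314
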