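import Claimed.Agent.R314.Geo.Basic
import Claimed.Agent.R316.Base.RGeo.Exp

/-!
# Row 314, block C, package GEO, unit G-c: uniform existence time, extension, completeness (owner helper29)

PORT of `R316/Base/Geod/Ext.lean` to the vocabulary of `C/Defs.lean`.
* `gx_exists_uniform_chart`, `gx_exists_uniform` : uniform existence time for initial points in a compact set and bounded velocities;
* `gx_extend_right`, `gx_extend` : a geodesic which stays in a compact set extends beyond its end points;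
* `gx_union` : union of geodesics with the same initial data;
* `gx_rdist_le` : a geodesic does not run faster than its speed (`Ioo a b`), `gx_rdist_le_univ` (= GEO-11);
* `gx_exists_univ` (= GEO-6): geodesic completeness of proper metrics.
Black boxes: `Geo/Basic.lean` (`isGeo_of_isGeod`, `geo_deriv_comp`, `exists_geo`, `IsGeo.eqOn/glue/glue_of_eventuallyEq/shift/reverse/speed_const/of_local/congr`), `Geo/Chart.lean` (`rgeo_isRiem`).
-/

set_option autoImplicit false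
set_option linter.unusedSectionVars false
set_option linter.unusedVariables false
open scoped ContDiff Topology
open Set Function Claims.C0499 Claimed.Agent.R315
open Claimed.Agent.R316 (RGeo)

namespace Claimed.Agent.R314

variable {V : Type} [NormedAddCommGroup V] [NormedSpace ℝ V] [FiniteDimensional ℝ V]
variable {d : ℕ} {M : Set V} {g : Ten V} {γ γ' : ℝ → V}

/-! ### uniform existence time -/

/-- uniform existence time in one parametrisation. -/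
theorem gx_exists_uniform_chart (hg : IsMetricOn d M g) {ψ : E d → V} {U : Set (E d)}
    (hψ : IsParam M ψ U) {K' : Set (E d)} (hK' : IsCompact K') (hK'U : K' ⊆ U) (R : ℝ) :
    ∃ δ > 0, ∀ z ∈ K', ∀ a : E d, g (ψ z) (fderiv ℝ ψ z a) (fderiv ℝ ψ z a) ≤ R ^ 2 →
      ∃ γ : ℝ → V, IsGeo d M g γ (Ioo (-δ) δ) ∧ γ 0 = ψ z ∧ deriv γ 0 = fderiv ℝ ψ z a := by
  have hS := rgeo_isRiem hg hψ
  obtain ⟨δ, hδ, H⟩ := hS.exists_uniform_time hK' hK'U |R|
  refine ⟨δ, hδ, fun z hz a ha => ?_⟩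
  have hzU := hK'U hz
  have hn : (rgeo g ψ U).nrm z a ≤ |R| := by
    unfold RGeo.nrm
    rw [rgeo_G_apply, ← Real.sqrt_sq_eq_abs]
    exact Real.sqrt_le_sqrt ha
  have hsub : Ioo (-δ) δ ⊆ {t | (t, (z, a)) ∈ (rgeo g ψ U).gdm} := fun t ht =>
    RGeo.mem_expDom_iff.1 (H z hz a hn t (abs_le.2 ⟨ht.1.le, ht.2.le⟩))
  have h0 : (0 : ℝ) ∈ {t | (t, (z, a)) ∈ (rgeo g ψ U).gdm} := RGeo.zero_mem_gdm.2 hzU
  have hc := (hS.isGeod_gfl z a).mono hsub
  have hd := hS.hasDerivAt_gfl_fst h0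
  rw [RGeo.gfl_zero] at hd
  have hc0 : ((rgeo g ψ U).gfl 0 (z, a)).1 = z := by rw [RGeo.gfl_zero]
  refine ⟨ψ ∘ fun r => ((rgeo g ψ U).gfl r (z, a)).1, isGeo_of_isGeod hg hψ isOpen_Ioo hc, ?_, ?_⟩
  · show ψ ((rgeo g ψ U).gfl 0 (z, a)).1 = ψ z
    rw [hc0]
  · rw [geo_deriv_comp hψ hd.differentiableAt (by rw [hc0]; exact hzU), hd.deriv, hc0]

/-- uniform existence time for initial points in a compact set and bounded initial velocities. -/
theorem gx_exists_uniform (hM : IsMfd d M) (hg : IsMetricOn d M g) {K : Set V} (hK : IsCompact K)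
    (hKM : K ⊆ M) (R : ℝ) :
    ∃ δ > 0, ∀ x ∈ K, ∀ v ∈ if_Tan d M x, g x v v ≤ R ^ 2 →
      ∃ γ : ℝ → V, IsGeo d M g γ (Ioo (-δ) δ) ∧ γ 0 = x ∧ deriv γ 0 = v := by
  refine hK.induction_on (p := fun S => ∃ δ > 0, ∀ x ∈ S, ∀ v ∈ if_Tan d M x, g x v v ≤ R ^ 2 →
      ∃ γ : ℝ → V, IsGeo d M g γ (Ioo (-δ) δ) ∧ γ 0 = x ∧ deriv γ 0 = v) ?_ ?_ ?_ ?_
  · exact ⟨1, one_pos, fun x hx => hx.elim⟩
  · rintro S T hST ⟨δ, hδ, H⟩
    exact ⟨δ, hδ, fun x hx => H x (hST hx)⟩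
  · rintro S T ⟨δ₁, hδ₁, H₁⟩ ⟨δ₂, hδ₂, H₂⟩
    refine ⟨min δ₁ δ₂, lt_min hδ₁ hδ₂, fun x hx v hv hq => ?_⟩
    rcases hx with hx | hx
    · obtain ⟨γ, hγ, h0, h1⟩ := H₁ x hx v hv hq
      exact ⟨γ, hγ.mono fun t ht => ⟨by linarith [ht.1, min_le_left δ₁ δ₂],
        by linarith [ht.2, min_le_left δ₁ δ₂]⟩, h0, h1⟩
    · obtain ⟨γ, hγ, h0, h1⟩ := H₂ x hx v hv hq
      exact ⟨γ, hγ.mono fun t ht => ⟨by linarith [ht.1, min_le_right δ₁ δ₂],
        by linarith [ht.2, min_le_right δ₁ δ₂]⟩, h0, h1⟩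
  · intro x hx
    obtain ⟨ψ, U, hψ, u, hu, rfl⟩ := hM x (hKM hx)
    obtain ⟨r, hr, hrU⟩ := Metric.nhds_basis_closedBall.mem_iff.1 ((if_open hψ).mem_nhds hu)
    obtain ⟨O, hO, hOe⟩ := if_image_open hψ Metric.isOpen_ball
      (Metric.ball_subset_closedBall.trans hrU : Metric.ball u r ⊆ U)
    have hxO : ψ u ∈ O :=
      (hOe ▸ mem_image_of_mem ψ (Metric.mem_ball_self hr) : ψ u ∈ M ∩ O).2
    obtain ⟨δ, hδ, H⟩ := gx_exists_uniform_chart hg hψ (isCompact_closedBall u r) hrU R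
    refine ⟨K ∩ O, inter_mem_nhdsWithin K (hO.mem_nhds hxO), δ, hδ, fun y hy v hv hq => ?_⟩
    have hy' : y ∈ ψ '' Metric.ball u r := hOe ▸ (⟨hKM hy.1, hy.2⟩ : y ∈ M ∩ O)
    obtain ⟨z, hz, rfl⟩ := hy'
    have hz' := Metric.ball_subset_closedBall hz
    obtain ⟨a, rfl⟩ : ∃ a, v = fderiv ℝ ψ z a := by
      obtain ⟨ψ', U', u', a', hψ', hu', he, rfl⟩ := hv
      have hd := if_mem_trDom hu' (hrU hz') he
      refine ⟨fderiv ℝ (if_tr ψ U ψ') u' a', ?_⟩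
      rw [if_fderiv_eq hψ' hψ hd, if_tr_eq hψ (hrU hz') he]
      rfl
    exact H z hz' a hq

/-! ### extension -/

/-- extension beyond the right end point. -/
theorem gx_extend_right (hM : IsMfd d M) (hg : IsMetricOn d M g) {a b : ℝ} (hab : a < b)
    (hγ : IsGeo d M g γ (Ioo a b)) {K : Set V} (hK : IsCompact K) (hKM : K ⊆ M)
    (hmem : ∀ t ∈ Ioo a b, γ t ∈ K) :
    ∃ (γ' : ℝ → V) (ε : ℝ), 0 < ε ∧ IsGeo d M g γ' (Ioo a (b + ε)) ∧ EqOn γ γ' (Ioo a b) := by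
  have hmid : (a + b) / 2 ∈ Ioo a b := ⟨by linarith, by linarith⟩
  have hnn : 0 ≤ g (γ ((a + b) / 2)) (deriv γ ((a + b) / 2)) (deriv γ ((a + b) / 2)) := by
    obtain ⟨ψ, U, u, A, hψ, hu, he, hA⟩ := hγ.deriv_tanAt hM isOpen_Ioo hmid
    rw [hA, ← he, ← if_cm_bil]
    by_cases hA0 : A = 0
    · simp [hA0]
    · exact ((rgeo_isRiem hg hψ).G_pos u hu A hA0).le
  obtain ⟨δ, hδ, H⟩ := gx_exists_uniform hM hg hK hKM
    (Real.sqrt (g (γ ((a + b) / 2)) (deriv γ ((a + b) / 2)) (deriv γ ((a + b) / 2))))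
  rw [Real.sq_sqrt hnn] at H
  have ht₁ : max ((a + b) / 2) (b - δ / 2) ∈ Ioo a b :=
    ⟨lt_max_of_lt_left hmid.1, max_lt hmid.2 (by linarith)⟩
  have ht₁' : b - δ / 2 ≤ max ((a + b) / 2) (b - δ / 2) := le_max_right _ _
  generalize max ((a + b) / 2) (b - δ / 2) = t₁ at ht₁ ht₁'
  obtain ⟨η, hη, hη0, hη1⟩ := H (γ t₁) (hmem t₁ ht₁) (deriv γ t₁)
    (hγ.deriv_tanAt hM isOpen_Ioo ht₁) (hγ.speed_const hM hg ht₁ hmid).le
  have hshift := hη.shift (-t₁)
  have hd : deriv (fun t => η (t + -t₁)) t₁ = deriv η 0 := by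
    have := deriv_comp_add_const (f := η) (-t₁) t₁
    simpa using this
  obtain ⟨σ, hσ, hσγ, -⟩ := hγ.glue hM hg hshift ht₁ ⟨by linarith, by linarith⟩
    (by simp [hη0]) (by rw [hd, hη1])
  refine ⟨σ, δ / 2, by linarith, hσ.mono fun t ht => ⟨?_, ?_⟩, fun t ht => (hσγ ht).symm⟩
  · exact (min_le_left _ _).trans_lt ht.1
  · exact lt_of_lt_of_le (by linarith [ht.2]) (le_max_right _ _)

/-- a geodesic which stays in a compact set extends beyond its end points. -/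
theorem gx_extend (hM : IsMfd d M) (hg : IsMetricOn d M g) {a b : ℝ} (hab : a < b)
    (hγ : IsGeo d M g γ (Ioo a b)) {K : Set V} (hK : IsCompact K) (hKM : K ⊆ M)
    (hmem : ∀ t ∈ Ioo a b, γ t ∈ K) :
    ∃ (γ' : ℝ → V) (ε : ℝ), 0 < ε ∧ IsGeo d M g γ' (Ioo (a - ε) (b + ε)) ∧
      EqOn γ γ' (Ioo a b) := by
  obtain ⟨γ₁, ε₁, hε₁, hγ₁, he₁⟩ := gx_extend_right hM hg hab hγ hK hKM hmem
  have hrev : IsGeo d M g (fun t => γ (a + b - t)) (Ioo a b) :=
    (hγ.reverse (a + b)).mono fun t ht => ⟨by linarith [ht.1], by linarith [ht.2]⟩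
  obtain ⟨γ₂, ε₂, hε₂, hγ₂, he₂⟩ := gx_extend_right hM hg hab hrev hK hKM
    (fun t ht => hmem _ ⟨by linarith [ht.2], by linarith [ht.1]⟩)
  have hγ₃ : IsGeo d M g (fun t => γ₂ (a + b - t)) (Ioo (a - ε₂) b) :=
    (hγ₂.reverse (a + b)).mono fun t ht => ⟨by linarith [ht.1], by linarith [ht.2]⟩
  have he₃ : EqOn (fun t => γ₂ (a + b - t)) γ (Ioo a b) := by
    intro t ht
    show γ₂ (a + b - t) = γ t
    rw [← he₂ ⟨by linarith [ht.2], by linarith [ht.1]⟩]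
    show γ (a + b - (a + b - t)) = γ t
    congr 1
    ring
  have hmid : (a + b) / 2 ∈ Ioo a b := ⟨by linarith, by linarith⟩
  obtain ⟨σ, hσ, hσ₃, -⟩ := hγ₃.glue_of_eventuallyEq hM hg hγ₁ (t₀ := (a + b) / 2)
    ⟨by linarith [hmid.1], hmid.2⟩ ⟨hmid.1, by linarith [hmid.2]⟩ (by
      filter_upwards [isOpen_Ioo.mem_nhds hmid] with t ht
      exact (he₃ ht).trans (he₁ ht))
  refine ⟨σ, min ε₁ ε₂, lt_min hε₁ hε₂, hσ.mono fun t ht => ⟨?_, ?_⟩, fun t ht => ?_⟩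
  · exact lt_of_le_of_lt (min_le_left _ _) (by linarith [ht.1, min_le_right ε₁ ε₂])
  · exact lt_of_lt_of_le (by linarith [ht.2, min_le_left ε₁ ε₂]) (le_max_right _ _)
  · rw [hσ₃ ⟨by linarith [ht.1], ht.2⟩, he₃ ht]

/-! ### completeness -/

/-- union of geodesics with the same initial data on symmetric intervals. -/
theorem gx_union (hM : IsMfd d M) (hg : IsMetricOn d M g) {x v : V} {A : Set ℝ} (hne : A.Nonempty)
    (hA : ∀ T ∈ A, 0 < T ∧ ∃ γ : ℝ → V, IsGeo d M g γ (Ioo (-T) T) ∧ γ 0 = x ∧ deriv γ 0 = v) :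
    ∃ σ : ℝ → V, IsGeo d M g σ (⋃ T ∈ A, Ioo (-T) T) ∧ σ 0 = x ∧ deriv σ 0 = v := by
  classical
  choose! G hG using fun T hT => (hA T hT).2
  have hcomp : ∀ T ∈ A, ∀ T' ∈ A, ∀ t, t ∈ Ioo (-T) T → t ∈ Ioo (-T') T' → G T t = G T' t := by
    intro T hT T' hT' t ht ht'
    have h1 : IsGeo d M g (G T) (Ioo (-min T T') (min T T')) := (hG T hT).1.mono fun r hr =>
      ⟨by linarith [hr.1, min_le_left T T'], by linarith [hr.2, min_le_left T T']⟩
    have h2 : IsGeo d M g (G T') (Ioo (-min T T') (min T T')) := (hG T' hT').1.mono fun r hr =>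
      ⟨by linarith [hr.1, min_le_right T T'], by linarith [hr.2, min_le_right T T']⟩
    have hpos : 0 < min T T' := lt_min (hA T hT).1 (hA T' hT').1
    refine h1.eqOn hM hg h2 (t₀ := 0) ⟨by linarith, hpos⟩ ?_ ?_ ⟨?_, lt_min ht.2 ht'.2⟩
    · rw [(hG T hT).2.1, (hG T' hT').2.1]
    · rw [(hG T hT).2.2, (hG T' hT').2.2]
    · rcases min_choice T T' with h' | h' <;> rw [h']
      · exact ht.1
      · exact ht'.1
  set σ : ℝ → V := fun t => if H : ∃ T ∈ A, t ∈ Ioo (-T) T then G H.choose t else x with hσ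
  have hσG : ∀ T ∈ A, EqOn σ (G T) (Ioo (-T) T) := by
    intro T hT t ht
    have H : ∃ T ∈ A, t ∈ Ioo (-T) T := ⟨T, hT, ht⟩
    show (if H : ∃ T ∈ A, t ∈ Ioo (-T) T then G H.choose t else x) = G T t
    rw [dif_pos H]
    exact hcomp _ H.choose_spec.1 T hT t H.choose_spec.2 ht
  obtain ⟨T₀, hT₀⟩ := hne
  have h0 : (0 : ℝ) ∈ Ioo (-T₀) T₀ := ⟨by linarith [(hA T₀ hT₀).1], (hA T₀ hT₀).1⟩
  refine ⟨σ, IsGeo.of_local fun t ht => ?_, ?_, ?_⟩
  · obtain ⟨T, hT, htT⟩ := mem_iUnion₂.1 ht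
    exact ⟨Ioo (-T) T, isOpen_Ioo, htT, (hG T hT).1.congr (hσG T hT)⟩
  · rw [hσG T₀ hT₀ h0, (hG T₀ hT₀).2.1]
  · rw [← (hG T₀ hT₀).2.2]
    apply Filter.EventuallyEq.deriv_eq
    filter_upwards [isOpen_Ioo.mem_nhds h0] with t ht using hσG T₀ hT₀ ht

/-- a geodesic does not run faster than its speed. -/
theorem gx_rdist_le (hM : IsMfd d M) (hg : IsMetricOn d M g) {a b : ℝ}
    (hγ : IsGeo d M g γ (Ioo a b)) {s t : ℝ} (hs : s ∈ Ioo a b) (ht : t ∈ Ioo a b) :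
    rdist M g (γ s) (γ t) ≤ Real.sqrt (g (γ s) (deriv γ s) (deriv γ s)) * |s - t| := by
  have key : ∀ s ∈ Ioo a b, ∀ t ∈ Ioo a b, s ≤ t →
      rdist M g (γ s) (γ t) ≤ Real.sqrt (g (γ s) (deriv γ s) (deriv γ s)) * |s - t| := by
    intro s hs t ht hst
    have hsub : Icc s t ⊆ Ioo a b := fun r hr => ⟨hs.1.trans_le hr.1, hr.2.trans_lt ht.2⟩
    have hm : ∀ r, if_aff s t r ∈ Icc s t := fun r => if_aff_mem hst r
    have hcd : ContDiff ℝ 1 (fun r => γ (if_aff s t r)) := by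
      rw [contDiff_iff_contDiffAt]
      intro r
      exact ((hγ.contDiffAt isOpen_Ioo (hsub (hm r))).of_le (by simp)).comp r
        (if_aff_contDiff s t).contDiffAt
    have hadm : if_Adm M (fun r => γ (if_aff s t r)) :=
      ⟨hcd, fun r _ => hγ.2.1 _ (hsub (hm r))⟩
    have hle := if_rdist_le' hadm g (x := γ s) (y := γ t) (by simp [if_aff_zero])
      (by simp [if_aff_one])
    refine hle.trans (le_of_eq ?_)
    unfold if_len
    have hd : ∀ r, DifferentiableAt ℝ (if_aff s t) r :=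
      (if_aff_contDiff s t).differentiable (by simp)
    have hsp : ∀ r, if_speed g (fun r => γ (if_aff s t r)) r =
        Real.sqrt (g (γ s) (deriv γ s) (deriv γ s)) * deriv (if_aff s t) r := by
      intro r
      unfold if_speed
      have e1 : deriv (fun r => γ (if_aff s t r)) r =
          deriv (if_aff s t) r • deriv γ (if_aff s t r) :=
        ((hγ.differentiableAt isOpen_Ioo (hsub (hm r))).hasDerivAt.scomp r (hd r).hasDerivAt).deriv
      have hn : 0 ≤ deriv (if_aff s t) r := by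
        rw [if_aff_deriv]
        exact mul_nonneg (by linarith) (if_st_deriv_nonneg r)
      rw [e1]
      simp only [map_smul, smul_apply, smul_eq_mul]
      rw [hγ.speed_const hM hg (hsub (hm r)) hs, ← mul_assoc, ← sq, Real.sqrt_mul (sq_nonneg _),
        Real.sqrt_sq hn, mul_comm]
    rw [intervalIntegral.integral_congr (g := fun r =>
      Real.sqrt (g (γ s) (deriv γ s) (deriv γ s)) * deriv (if_aff s t) r) fun r _ => hsp r,
      intervalIntegral.integral_const_mul]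
    have hint : ∫ r in (0 : ℝ)..1, deriv (if_aff s t) r = t - s := by
      simp only [if_aff_deriv]
      rw [intervalIntegral.integral_const_mul, if_st_integral_deriv, mul_one]
    rw [hint, abs_sub_comm, abs_of_nonneg (sub_nonneg.2 hst)]
  rcases le_total s t with hst | hst
  · exact key s hs t ht hst
  · rw [if_rdist_symm, abs_sub_comm, hγ.speed_const hM hg hs ht]
    exact key t ht s hs hst

theorem gx_mem_cb (hM : IsMfd d M) (hg : IsMetricOn d M g) {T : ℝ}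
    (hγ : IsGeo d M g γ (Ioo (-T) T)) {t : ℝ} (ht : t ∈ Ioo (-T) T) :
    γ t ∈ cb M g (γ 0) (Real.sqrt (g (γ 0) (deriv γ 0) (deriv γ 0)) * T) := by
  have h0 : (0 : ℝ) ∈ Ioo (-T) T := ⟨by linarith [ht.1, ht.2], by linarith [ht.1, ht.2]⟩
  refine ⟨hγ.2.1 t ht, (gx_rdist_le hM hg hγ h0 ht).trans ?_⟩
  refine mul_le_mul_of_nonneg_left ?_ (Real.sqrt_nonneg _)
  rw [zero_sub, abs_neg, abs_le]
  exact ⟨ht.1.le, ht.2.le⟩

/-- **GEO-6** geodesic completeness of proper metrics. -/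
theorem gx_exists_univ (hM : IsMfd d M) (hg : IsMetricOn d M g) (hp : IsProperOn M g) {x v : V}
    (hx : x ∈ M) (hv : v ∈ if_Tan d M x) :
    ∃ γ : ℝ → V, IsGeo d M g γ univ ∧ γ 0 = x ∧ deriv γ 0 = v := by
  set A : Set ℝ := {T | 0 < T ∧ ∃ γ : ℝ → V, IsGeo d M g γ (Ioo (-T) T) ∧ γ 0 = x ∧
    deriv γ 0 = v} with hAdef
  have hne : A.Nonempty := by
    obtain ⟨γ, ε, hε, hγ, h0, h1⟩ := exists_geo hM hg hv
    exact ⟨ε, hε, γ, hγ, h0, h1⟩
  obtain ⟨σ, hσ, hσ0, hσ1⟩ := gx_union hM hg hne (fun T hT => hT)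
  have hunb : ¬ BddAbove A := by
    intro hb
    obtain ⟨T₀, hT₀⟩ := hne
    have hpos : 0 < sSup A := hT₀.1.trans_le (le_csSup hb hT₀)
    have hσ' : IsGeo d M g σ (Ioo (-sSup A) (sSup A)) := by
      refine hσ.mono fun t ht => ?_
      have : |t| < sSup A := abs_lt.2 ht
      obtain ⟨T, hT, htT⟩ := exists_lt_of_lt_csSup ⟨T₀, hT₀⟩ this
      exact mem_iUnion₂.2 ⟨T, hT, abs_lt.1 htT⟩
    obtain ⟨σ₂, ε, hε, hσ₂, he⟩ := gx_extend hM hg (by linarith) hσ' (hp (σ 0) (hσ0 ▸ hx) _)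
      (cb_subset _ _ _ _) (fun t ht => gx_mem_cb hM hg hσ' ht)
    have h0 : (0 : ℝ) ∈ Ioo (-sSup A) (sSup A) := ⟨by linarith, hpos⟩
    have hmem : sSup A + ε ∈ A := by
      refine ⟨by linarith, σ₂, hσ₂.mono fun t ht => ⟨by linarith [ht.1], ht.2⟩, ?_, ?_⟩
      · rw [← he h0, hσ0]
      · rw [← hσ1]
        apply Filter.EventuallyEq.deriv_eq
        filter_upwards [isOpen_Ioo.mem_nhds h0] with t ht using (he ht).symm
    have := le_csSup hb hmem
    linarith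
  refine ⟨σ, hσ.mono fun t _ => ?_, hσ0, hσ1⟩
  obtain ⟨T, hT, htT⟩ := not_bddAbove_iff.1 hunb |t|
  exact mem_iUnion₂.2 ⟨T, hT, abs_lt.1 htT⟩

/-- **GEO-11** distance along a complete geodesic. -/
theorem gx_rdist_le_univ (hM : IsMfd d M) (hg : IsMetricOn d M g) (hγ : IsGeo d M g γ univ)
    (s t : ℝ) :
    rdist M g (γ s) (γ t) ≤ |s - t| * Real.sqrt (g (γ 0) (deriv γ 0) (deriv γ 0)) := by
  set T : ℝ := |s| + |t| + 1 with hT
  have hs : s ∈ Ioo (-T) T := abs_lt.1 (by rw [hT]; linarith [abs_nonneg t])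
  have ht : t ∈ Ioo (-T) T := abs_lt.1 (by rw [hT]; linarith [abs_nonneg s])
  have h0 : (0 : ℝ) ∈ Ioo (-T) T :=
    ⟨by rw [hT]; linarith [abs_nonneg s, abs_nonneg t], by rw [hT]; linarith [abs_nonneg s, abs_nonneg t]⟩
  have hγ' : IsGeo d M g γ (Ioo (-T) T) := hγ.mono (subset_univ _)
  have := gx_rdist_le hM hg hγ' hs ht
  rwa [hγ'.speed_const hM hg hs h0, mul_comm] at this

end Claimed.Agent.R314
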