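import Claimed.Agent.R314.Geo.Basic

/-!
# Row 314, block C, package GEO, group G-b (helper256): functions along geodesics      -- KEEP

On top of `R314/Geo/{Chart,Basic}.lean`.   `glf_contDiffOn_comp` (GEO-12), `glf_deriv_comp` (GEO-13), `glf_deriv2_comp` (GEO-14).
-/

set_option autoImplicit false
set_option linter.unusedSectionVars false
set_option linter.unusedVariables false
open scoped ContDiff Topology
open Set Function Claims.C0499 Claimed.Agent.R315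
open Claimed.Agent.R316 (RGeo)

namespace Claimed.Agent.R314

variable {V : Type} [NormedAddCommGroup V] [NormedSpace ℝ V] [FiniteDimensional ℝ V]
variable {n : ℕ} {X : Set V} {g : Ten V} {γ : ℝ → V} {I : Set ℝ}
variable {ψ : E n → V} {U : Set (E n)}

/-- local coordinate representation of `s ∘ γ`. -/
theorem glf_local (hI : IsOpen I) (hγ : ContDiffOn ℝ ∞ γ I) (hmem : ∀ t ∈ I, γ t ∈ X) {t : ℝ} (ht : t ∈ I)
    (hp : IsParam X ψ U) (hx : γ t ∈ ψ '' U) :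
    ∃ δ > 0, Ioo (t - δ) (t + δ) ⊆ I ∧ ContDiffOn ℝ ∞ (invFunOn ψ U ∘ γ) (Ioo (t - δ) (t + δ)) ∧
      ∀ r ∈ Ioo (t - δ) (t + δ), (invFunOn ψ U ∘ γ) r ∈ U ∧ ψ ((invFunOn ψ U ∘ γ) r) = γ r ∧
        deriv γ r = fderiv ℝ ψ ((invFunOn ψ U ∘ γ) r) (deriv (invFunOn ψ U ∘ γ) r) := by
  obtain ⟨δ, hδ, hsub, hch⟩ := geo_exists_chart_nhds hI hγ.continuousOn hmem ht hp hx
  obtain ⟨h1, h2⟩ := geo_lift hp isOpen_Ioo (hγ.mono hsub) hch
  exact ⟨δ, hδ, hsub, h1, h2⟩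

/-- **GEO-12** (for any smooth curve in `X`). -/
theorem glf_contDiffOn_comp_curve (hX : IsMfd n X) (hI : IsOpen I) (hγ : ContDiffOn ℝ ∞ γ I)
    (hmem : ∀ t ∈ I, γ t ∈ X) {F : Type} [NormedAddCommGroup F] [NormedSpace ℝ F] {s : V → F}
    (hs : SmoothAlong n X s) : ContDiffOn ℝ ∞ (s ∘ γ) I := by
  intro t ht
  obtain ⟨ψ, U, hp, hx⟩ := hX _ (hmem t ht)
  obtain ⟨δ, hδ, hsub, h1, h2⟩ := glf_local hI hγ hmem ht hp hx
  have h3 : ContDiffOn ℝ ∞ ((s ∘ ψ) ∘ (invFunOn ψ U ∘ γ)) (Ioo (t - δ) (t + δ)) :=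
    (hs ψ U hp).comp h1 fun r hr => (h2 r hr).1
  have htJ : t ∈ Ioo (t - δ) (t + δ) := ⟨by linarith, by linarith⟩
  have h4 : ContDiffAt ℝ ∞ ((s ∘ ψ) ∘ (invFunOn ψ U ∘ γ)) t := h3.contDiffAt (isOpen_Ioo.mem_nhds htJ)
  refine (h4.congr_of_eventuallyEq ?_).contDiffWithinAt
  filter_upwards [isOpen_Ioo.mem_nhds htJ] with r hr
  show s (γ r) = s (ψ ((invFunOn ψ U ∘ γ) r))
  rw [(h2 r hr).2.1]

/-- **GEO-13** (for any smooth curve in `X`). -/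
theorem glf_deriv_comp_curve (hX : IsMfd n X) (hI : IsOpen I) (hγ : ContDiffOn ℝ ∞ γ I)
    (hmem : ∀ t ∈ I, γ t ∈ X) {s : V → ℝ} (hs : SmoothAlong n X s) {t : ℝ} (ht : t ∈ I) :
    deriv (s ∘ γ) t = tder n X s (γ t) (deriv γ t) := by
  obtain ⟨ψ, U, hp, hx⟩ := hX _ (hmem t ht)
  obtain ⟨δ, hδ, hsub, h1, h2⟩ := glf_local hI hγ hmem ht hp hx
  have htJ : t ∈ Ioo (t - δ) (t + δ) := ⟨by linarith, by linarith⟩
  obtain ⟨a1, a2, a3⟩ := h2 t htJ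
  have he : s ∘ γ =ᶠ[𝓝 t] (s ∘ ψ) ∘ (invFunOn ψ U ∘ γ) := by
    filter_upwards [isOpen_Ioo.mem_nhds htJ] with r hr
    show s (γ r) = s (ψ ((invFunOn ψ U ∘ γ) r))
    rw [(h2 r hr).2.1]
  have hcd : DifferentiableAt ℝ (invFunOn ψ U ∘ γ) t :=
    (h1.contDiffAt (isOpen_Ioo.mem_nhds htJ)).differentiableAt (by simp)
  have hfd : DifferentiableAt ℝ (s ∘ ψ) ((invFunOn ψ U ∘ γ) t) :=
    ((hs ψ U hp).contDiffAt ((if_open hp).mem_nhds a1)).differentiableAt (by simp)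
  rw [he.deriv_eq, (hfd.hasFDerivAt.comp_hasDerivAt t hcd.hasDerivAt).deriv, a3, ← a2,
    if_tder_apply hs hp a1]

/-- **GEO-12** -/
theorem glf_contDiffOn_comp (hX : IsMfd n X) (hγ : IsGeo n X g γ I) (hI : IsOpen I) {s : V → ℝ}
    (hs : SmoothAlong n X s) : ContDiffOn ℝ ∞ (s ∘ γ) I :=
  glf_contDiffOn_comp_curve hX hI hγ.1 hγ.2.1 hs

/-- **GEO-13** -/
theorem glf_deriv_comp (hX : IsMfd n X) (hγ : IsGeo n X g γ I) (hI : IsOpen I) {s : V → ℝ}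
    (hs : SmoothAlong n X s) {t : ℝ} (ht : t ∈ I) :
    deriv (s ∘ γ) t = tder n X s (γ t) (deriv γ t) :=
  glf_deriv_comp_curve hX hI hγ.1 hγ.2.1 hs ht

/-- **GEO-14** second derivative `= Hess s (γ', γ')`. -/
theorem glf_deriv2_comp (hX : IsMfd n X) (hg : IsMetricOn n X g) (hγ : IsGeo n X g γ I) (hI : IsOpen I)
    {s : V → ℝ} (hs : SmoothAlong n X s) {t : ℝ} (ht : t ∈ I) (hp : IsParam X ψ U) {u : E n} (hu : u ∈ U)
    (hut : ψ u = γ t) {A : E n} (hA : fderiv ℝ ψ u A = deriv γ t) :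
    deriv (deriv (s ∘ γ)) t = (rgeo g ψ U).hess (s ∘ ψ) u A A := by
  obtain ⟨δ, hδ, hsub, h1, h2⟩ := glf_local hI hγ.1 hγ.2.1 ht hp ⟨u, hu, hut⟩
  have htJ : t ∈ Ioo (t - δ) (t + δ) := ⟨by linarith, by linarith⟩
  obtain ⟨a1, a2, a3⟩ := h2 t htJ
  have hgeod : (rgeo g ψ U).IsGeod (invFunOn ψ U ∘ γ) (Ioo (t - δ) (t + δ)) :=
    hγ.2.2 ψ U hp _ _ hsub isOpen_Ioo fun r hr => ⟨(h2 r hr).1, (h2 r hr).2.1⟩
  have hcu : (invFunOn ψ U ∘ γ) t = u := by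
    show invFunOn ψ U (γ t) = u
    rw [← hut, if_leftInv hp hu]
  have hcA : deriv (invFunOn ψ U ∘ γ) t = A := by
    apply if_imm hp hu
    rw [hA, a3, hcu]
  have he : s ∘ γ =ᶠ[𝓝 t] fun r => (s ∘ ψ) ((invFunOn ψ U ∘ γ) r) := by
    filter_upwards [isOpen_Ioo.mem_nhds htJ] with r hr
    show s (γ r) = s (ψ ((invFunOn ψ U ∘ γ) r))
    rw [(h2 r hr).2.1]
  have hc2 : ContDiffAt ℝ 2 (invFunOn ψ U ∘ γ) t :=
    (h1.contDiffAt (isOpen_Ioo.mem_nhds htJ)).of_le (by norm_cast)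
  have hf2 : ContDiffAt ℝ 2 (s ∘ ψ) ((invFunOn ψ U ∘ γ) t) :=
    ((hs ψ U hp).contDiffAt ((if_open hp).mem_nhds a1)).of_le (by norm_cast)
  rw [he.deriv.deriv_eq, RGeo.hess_comp_curve (rgeo g ψ U) hf2 hc2, hgeod.2.2 t htJ, map_zero, add_zero,
    hcu, hcA]

end Claimed.Agent.R314
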