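import Claimed.Agent.R314.C.Geo.Chart
import Claimed.Agent.R316.Base.RGeo.Par

/-!
# Row 314, block C, package GEO: parallel transport along smooth curves (helper106)

Port of `R316/Base/Geod/Par.lean` (sections 1, 2) to the vocabulary of `C/Defs.lean` (`rgeo`, `IsPar`, `if_Tan`).
All statements are for a SMOOTH CURVE `γ` in `X` on an interval `I` which is an arbitrary preconnected subset of `ℝ` that is also a topologically o-p-e-n set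
(`Ioo a b` and `univ` are the two cases of the exit file); the geodesic equation is never used.

* `IsPar.congr`, `IsPar.of_local` : locality.
* `gp_chart_nhds`, `gp_coord` : the coordinate curve `invFunOn ψ U ∘ γ` on a chart interval.
* `gpCo ψ u v` : coordinates of the tangent vector `v` at `ψ u`; `gpCo_fderiv`, `gp_fderiv_gpCo`, `gp_contDiffOn_gpCo`.
* `IsPar.coord` : the coordinate field of a parallel field is smooth and parallel in the chart.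
* `isPar_of_isParallel` : a parallel field of one chart is a parallel field of the manifold.
* `IsPar.eqOn`, `IsPar.glue`, `gp_exists_local`, `gp_exists` : uniqueness, gluing, existence.
* `IsPar.add`, `IsPar.smul`, `IsPar.g_const` : linearity, parallel transport is isometric.
* `gp_par_exists`, `gp_par_exists_univ` : **GEO-15**, **GEO-15'** in the form of the exit file.
-/

set_option autoImplicit false
set_option linter.unusedSectionVars false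
set_option linter.unusedVariables false
open scoped ContDiff Topology
open Set Function Claims.C0499 Claimed.Agent.R315

namespace Claimed.Agent.R314

variable {V : Type} [NormedAddCommGroup V] [NormedSpace ℝ V] [FiniteDimensional ℝ V]
variable {n : ℕ} {X : Set V} {g : Ten V}
variable {γ γ' Y Y' : ℝ → V} {a b : ℝ} {I J : Set ℝ}
variable {ψ ψ' : E n → V} {U U' : Set (E n)}

/-! ### 1. locality, one chart -/

theorem gp_mono (hY : IsPar n X g γ Y I) (hsub : J ⊆ I) : IsPar n X g γ Y J :=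
  ⟨hY.1.mono hsub, fun t ht => hY.2.1 t (hsub ht),
    fun ψ U hp c e I' hI' hI'o hc => hY.2.2 ψ U hp c e I' (hI'.trans hsub) hI'o hc⟩

theorem IsPar.congr (hY : IsPar n X g γ Y I) (hγ : EqOn γ' γ I) (he : EqOn Y' Y I) :
    IsPar n X g γ' Y' I := by
  refine ⟨hY.1.congr he, fun t ht => ?_, fun ψ U hp c e I' hI' hI'o hc => ?_⟩
  · rw [he ht, hγ ht]
    exact hY.2.1 t ht
  · exact hY.2.2 ψ U hp c e I' hI' hI'o fun t ht =>
      ⟨(hc t ht).1, (hc t ht).2.1.trans (hγ (hI' ht)), (hc t ht).2.2.trans (he (hI' ht))⟩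

theorem IsPar.of_local (H : ∀ t ∈ I, ∃ J : Set ℝ, IsOpen J ∧ t ∈ J ∧ IsPar n X g γ Y J) :
    IsPar n X g γ Y I := by
  refine ⟨fun t ht => ?_, fun t ht => ?_, fun ψ U hp c e I' hI' hI'o hc t ht => ?_⟩
  · obtain ⟨J, hJo, htJ, hJ⟩ := H t ht
    exact (hJ.1.contDiffAt (hJo.mem_nhds htJ)).contDiffWithinAt
  · obtain ⟨J, hJo, htJ, hJ⟩ := H t ht
    exact hJ.2.1 t htJ
  · obtain ⟨J, hJo, htJ, hJ⟩ := H t (hI' ht)
    exact hJ.2.2 ψ U hp c e (J ∩ I') inter_subset_left (hJo.inter hI'o) (fun s hs => hc s hs.2) t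
      ⟨htJ, ht⟩

/-- **connectedness principle** on an interval. -/
theorem gp_induction (hI : IsOpen I) (hIc : IsPreconnected I) {P : ℝ → Prop} {t₀ : ℝ}
    (ht₀ : t₀ ∈ I) (h0 : P t₀)
    (hloc : ∀ t ∈ I, ∃ δ > 0, ∀ s ∈ Ioo (t - δ) (t + δ), ∀ s' ∈ Ioo (t - δ) (t + δ),
      s ∈ I → s' ∈ I → P s → P s') : ∀ t ∈ I, P t := by
  by_contra hcon
  push Not at hcon
  obtain ⟨t₁, ht₁, hP₁⟩ := hcon
  have hopen : ∀ Q : ℝ → Prop, (∀ t ∈ I, ∃ δ > 0, ∀ s ∈ Ioo (t - δ) (t + δ),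
      s ∈ I → Q t → Q s) → IsOpen {t | t ∈ I ∧ Q t} := by
    intro Q hQ
    rw [Metric.isOpen_iff]
    rintro t ⟨ht, hQt⟩
    obtain ⟨δ, hδ, H⟩ := hQ t ht
    obtain ⟨ε, hε, hεs⟩ := Metric.isOpen_iff.1 hI t ht
    refine ⟨min δ ε, lt_min hδ hε, fun s hs => ?_⟩
    have hs1 : s ∈ I := hεs (Metric.ball_subset_ball (min_le_right _ _) hs)
    have hs2 : s ∈ Ioo (t - δ) (t + δ) := by
      rw [← Real.ball_eq_Ioo]
      exact Metric.ball_subset_ball (min_le_left _ _) hs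
    exact ⟨hs1, H s hs2 hs1 hQt⟩
  have hA : IsOpen {t | t ∈ I ∧ P t} := by
    refine hopen P fun t ht => ?_
    obtain ⟨δ, hδ, H⟩ := hloc t ht
    exact ⟨δ, hδ, fun s hs hs' hPt => H t ⟨by linarith, by linarith⟩ s hs ht hs' hPt⟩
  have hB : IsOpen {t | t ∈ I ∧ ¬ P t} := by
    refine hopen (fun t => ¬ P t) fun t ht => ?_
    obtain ⟨δ, hδ, H⟩ := hloc t ht
    exact ⟨δ, hδ, fun s hs hs' hPt hPs => hPt (H s hs t ⟨by linarith, by linarith⟩ hs' ht hPs)⟩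
  obtain ⟨t, -, ht1, ht2⟩ := hIc _ _ hA hB
    (fun t ht => by
      by_cases hP : P t
      · exact Or.inl ⟨ht, hP⟩
      · exact Or.inr ⟨ht, hP⟩) ⟨t₀, ht₀, ht₀, h0⟩ ⟨t₁, ht₁, ht₁, hP₁⟩
  exact ht2.2 ht1.2

/-- near a time `t₀` a continuous curve in `X` stays in the image of a given parametrisation around `γ t₀`. -/
theorem gp_chart_nhds (hI : IsOpen I) (hc : ContinuousOn γ I) (hmem : ∀ t ∈ I, γ t ∈ X) {t₀ : ℝ}
    (ht₀ : t₀ ∈ I) (hp : IsParam X ψ U) (hx : γ t₀ ∈ ψ '' U) :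
    ∃ δ > 0, Ioo (t₀ - δ) (t₀ + δ) ⊆ I ∧ ∀ t ∈ Ioo (t₀ - δ) (t₀ + δ), γ t ∈ ψ '' U := by
  obtain ⟨O, hO, hOeq⟩ := if_image hp
  have hxO : γ t₀ ∈ O := (hOeq ▸ hx : γ t₀ ∈ X ∩ O).2
  have h1 : ∀ᶠ t in 𝓝 t₀, t ∈ I ∧ γ t ∈ O :=
    (hI.eventually_mem ht₀).and ((hc.continuousAt (hI.mem_nhds ht₀)) (hO.mem_nhds hxO))
  obtain ⟨δ, hδ, hball⟩ := Metric.eventually_nhds_iff_ball.1 h1
  refine ⟨δ, hδ, fun t ht => (hball t (by rwa [Real.ball_eq_Ioo])).1, fun t ht => ?_⟩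
  have := hball t (by rwa [Real.ball_eq_Ioo])
  rw [hOeq]
  exact ⟨hmem t this.1, this.2⟩

/-- the coordinate curve. -/
theorem gp_coord (hp : IsParam X ψ U) (hI : IsOpen I) (hγ : ContDiffOn ℝ ∞ γ I)
    (hmem : ∀ t ∈ I, γ t ∈ X) (hsub : ∀ t ∈ I, γ t ∈ ψ '' U) :
    ContDiffOn ℝ ∞ (invFunOn ψ U ∘ γ) I ∧
      ∀ t ∈ I, (invFunOn ψ U ∘ γ) t ∈ U ∧ ψ ((invFunOn ψ U ∘ γ) t) = γ t := by
  refine ⟨fun t₀ ht₀ => ?_, fun t ht => ⟨if_inv_mem (hsub t ht), if_rightInv (hsub t ht)⟩⟩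
  obtain ⟨u₀, hu₀, he⟩ := hsub t₀ ht₀
  obtain ⟨ρ, O, hO, hmemO, hρ, hmaps, hinv⟩ := if_exists_retr hp hu₀
  rw [he] at hmemO
  have hγat := hγ.contDiffAt (hI.mem_nhds ht₀)
  have h1 : ContDiffAt ℝ ∞ (ρ ∘ γ) t₀ := (hρ.contDiffAt (hO.mem_nhds hmemO)).comp t₀ hγat
  refine (h1.congr_of_eventuallyEq ?_).contDiffWithinAt
  filter_upwards [hI.mem_nhds ht₀, hγat.continuousAt (hO.mem_nhds hmemO)] with t ht htO
  exact ((hinv _ ⟨hmem t ht, htO⟩).2).symm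

/-- coordinates of the tangent vector `v` at `ψ u`. -/
noncomputable def gpCo (ψ : E n → V) (u : E n) (v : V) : E n := invFun (fderiv ℝ ψ u) v

theorem gpCo_fderiv (hp : IsParam X ψ U) {u : E n} (hu : u ∈ U) (A : E n) :
    gpCo ψ u (fderiv ℝ ψ u A) = A := leftInverse_invFun (if_imm hp hu) A

theorem gp_fderiv_gpCo (hp : IsParam X ψ U) {u : E n} (hu : u ∈ U) {v : V}
    (hv : v ∈ if_Tan n X (ψ u)) : fderiv ℝ ψ u (gpCo ψ u v) = v := by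
  obtain ⟨A, rfl⟩ := (if_tan_iff hp hu).1 hv
  rw [gpCo_fderiv hp hu]

/-- the coordinate field of a smooth tangent field along a smooth coordinate curve is smooth. -/
theorem gp_contDiffOn_gpCo (hp : IsParam X ψ U) (hI : IsOpen I) {c : ℝ → E n}
    (hc : ContDiffOn ℝ ∞ c I) (hcU : ∀ t ∈ I, c t ∈ U) (hY : ContDiffOn ℝ ∞ Y I)
    (hYt : ∀ t ∈ I, Y t ∈ if_Tan n X (ψ (c t))) :
    ContDiffOn ℝ ∞ (fun t => gpCo ψ (c t) (Y t)) I := by
  intro t₀ ht₀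
  obtain ⟨ρ, O, hO, hzO, hρ, hmaps, hinv⟩ := if_exists_retr hp (hcU t₀ ht₀)
  have hU' : IsOpen (U ∩ ψ ⁻¹' O) := (if_continuousOn hp).isOpen_inter_preimage (if_open hp) hO
  have hid : ∀ ζ ∈ U ∩ ψ ⁻¹' O, ∀ v : E n, fderiv ℝ ρ (ψ ζ) (fderiv ℝ ψ ζ v) = v := by
    intro ζ hζ v
    have h1 : HasFDerivAt (ρ ∘ ψ) ((fderiv ℝ ρ (ψ ζ)).comp (fderiv ℝ ψ ζ)) ζ :=
      (((hρ _ hζ.2).contDiffAt (hO.mem_nhds hζ.2)).differentiableAt (by simp)).hasFDerivAt.comp ζ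
        (if_differentiableAt hp hζ.1).hasFDerivAt
    have h2 : (ρ ∘ ψ) =ᶠ[𝓝 ζ] id := by
      filter_upwards [hU'.mem_nhds hζ] with y hy
      show ρ (ψ y) = y
      rw [(hinv _ ⟨if_mem hp hy.1, hy.2⟩).2, if_leftInv hp hy.1]
    have h3 := (h1.congr_of_eventuallyEq h2.symm).unique (hasFDerivAt_id ζ)
    exact congrArg (fun L : E n →L[ℝ] E n => L v) h3
  have hcat : ContDiffAt ℝ ∞ c t₀ := hc.contDiffAt (hI.mem_nhds ht₀)
  have hYat : ContDiffAt ℝ ∞ Y t₀ := hY.contDiffAt (hI.mem_nhds ht₀)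
  have hψc : ContDiffAt ℝ ∞ (fun t => ψ (c t)) t₀ := (if_contDiffAt hp (hcU t₀ ht₀)).comp t₀ hcat
  have hdρ : ContDiffAt ℝ ∞ (fderiv ℝ ρ) (ψ (c t₀)) :=
    (hρ.fderiv_of_isOpen hO (by simp)).contDiffAt (hO.mem_nhds hzO)
  have h4 : ContDiffAt ℝ ∞ (fun t => fderiv ℝ ρ (ψ (c t)) (Y t)) t₀ :=
    (hdρ.comp t₀ hψc).clm_apply hYat
  refine (h4.congr_of_eventuallyEq ?_).contDiffWithinAt
  filter_upwards [hI.mem_nhds ht₀, hcat.continuousAt (hU'.mem_nhds ⟨hcU t₀ ht₀, hzO⟩)] with t ht htU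
  obtain ⟨v, hv⟩ := (if_tan_iff hp htU.1).1 (hYt t ht)
  rw [hv, gpCo_fderiv hp htU.1, hid _ htU]

/-- the coordinate field of a parallel field along a curve which stays in the image of one parametrisation. -/
theorem IsPar.coord (hI : IsOpen I) (hγ : ContDiffOn ℝ ∞ γ I) (hmem : ∀ t ∈ I, γ t ∈ X)
    (hY : IsPar n X g γ Y I) (hp : IsParam X ψ U) (hsub : ∀ t ∈ I, γ t ∈ ψ '' U) :
    ContDiffOn ℝ ∞ (fun t => gpCo ψ ((invFunOn ψ U ∘ γ) t) (Y t)) I ∧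
    (rgeo g ψ U).IsParallel (invFunOn ψ U ∘ γ) (fun t => gpCo ψ ((invFunOn ψ U ∘ γ) t) (Y t)) I ∧
    ∀ t ∈ I, Y t = fderiv ℝ ψ ((invFunOn ψ U ∘ γ) t) (gpCo ψ ((invFunOn ψ U ∘ γ) t) (Y t)) := by
  obtain ⟨hcs, hc⟩ := gp_coord hp hI hγ hmem hsub
  have hYt : ∀ t ∈ I, Y t ∈ if_Tan n X (ψ ((invFunOn ψ U ∘ γ) t)) := fun t ht => by
    rw [(hc t ht).2]
    exact hY.2.1 t ht
  have hval : ∀ t ∈ I,
      Y t = fderiv ℝ ψ ((invFunOn ψ U ∘ γ) t) (gpCo ψ ((invFunOn ψ U ∘ γ) t) (Y t)) :=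
    fun t ht => (gp_fderiv_gpCo hp (hc t ht).1 (hYt t ht)).symm
  exact ⟨gp_contDiffOn_gpCo hp hI hcs (fun t ht => (hc t ht).1) hY.1 hYt,
    hY.2.2 ψ U hp _ _ I subset_rfl hI fun t ht => ⟨(hc t ht).1, (hc t ht).2, (hval t ht).symm⟩,
    hval⟩

/-- a parallel field of one chart is a parallel field of the manifold. -/
theorem isPar_of_isParallel (hg : IsMetricOn n X g) (hp : IsParam X ψ U) (hI : IsOpen I)
    {c Z : ℝ → E n} (hc : ContDiffOn ℝ ∞ c I) (hcU : ∀ t ∈ I, c t ∈ U) (hZ : ContDiffOn ℝ ∞ Z I)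
    (hpar : (rgeo g ψ U).IsParallel c Z I) :
    IsPar n X g (ψ ∘ c) (fun t => fderiv ℝ ψ (c t) (Z t)) I := by
  refine ⟨fun t ht => ?_, fun t ht => if_tan_mk hp (hcU t ht) _, ?_⟩
  · have h1 : ContDiffAt ℝ ∞ (fderiv ℝ ψ) (c t) :=
      ((if_smooth hp).fderiv_of_isOpen (if_open hp) (by simp)).contDiffAt
        ((if_open hp).mem_nhds (hcU t ht))
    exact ((h1.comp t (hc.contDiffAt (hI.mem_nhds ht))).clm_apply
      (hZ.contDiffAt (hI.mem_nhds ht))).contDiffWithinAt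
  · intro ψ' U' hp' c' e' I' hI' hI'o he
    have hcU' : ∀ t ∈ I', c t ∈ if_trDom ψ U ψ' U' := fun t ht =>
      if_mem_trDom (hcU t (hI' ht)) (he t ht).1 (he t ht).2.1.symm
    have hpar' : (rgeo g ψ (if_trDom ψ U ψ' U')).IsParallel c Z I' := fun t ht => hpar t (hI' ht)
    have h1 := ((geo_isIsom_tr g hp hp').isParallel_iff (geo_isRiem_trDom hg hp hp')
      (geo_rgeo_isRiem hg hp') (c := c) (Z := Z) (I := I')
      (fun t ht => ⟨hcU' t ht, (hc.contDiffAt (hI.mem_nhds (hI' ht))).differentiableAt (by simp)⟩)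
      (fun t ht => (hZ.contDiffAt (hI.mem_nhds (hI' ht))).differentiableAt (by simp))).2 hpar'
    intro t ht
    have e1 : c' =ᶠ[𝓝 t] fun s => if_tr ψ' U' ψ (c s) := by
      filter_upwards [hI'o.mem_nhds ht] with s hs
      exact (if_tr_eq hp' (he s hs).1 (he s hs).2.1.symm).symm
    have e2 : e' =ᶠ[𝓝 t] fun s => fderiv ℝ (if_tr ψ' U' ψ) (c s) (Z s) := by
      filter_upwards [hI'o.mem_nhds ht] with s hs
      exact (geo_tr_vec hp hp' (hcU s (hI' hs)) (he s hs).1 (he s hs).2.1.symm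
        (he s hs).2.2.symm).symm
    rw [← h1 t ht]
    simp only [R316.RGeo.covD, e1.deriv_eq, e2.deriv_eq]
    rw [e1.self_of_nhds, e2.self_of_nhds]

/-! ### 2. uniqueness and existence -/

theorem IsPar.eqOn (hX : IsMfd n X) (hg : IsMetricOn n X g) (hI : IsOpen I)
    (hIc : IsPreconnected I) (hγ : ContDiffOn ℝ ∞ γ I) (hmem : ∀ t ∈ I, γ t ∈ X)
    (hY : IsPar n X g γ Y I) (hY' : IsPar n X g γ Y' I) {t₀ : ℝ}
    (ht₀ : t₀ ∈ I) (h0 : Y t₀ = Y' t₀) : EqOn Y Y' I := by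
  refine gp_induction hI hIc (P := fun r => Y r = Y' r) ht₀ h0 fun t ht => ?_
  obtain ⟨ψ, U, hp, hx⟩ := hX _ (hmem t ht)
  obtain ⟨δ, hδ, hsub, hch⟩ := gp_chart_nhds hI hγ.continuousOn hmem ht hp hx
  refine ⟨δ, hδ, fun r hr r' hr' _ _ hP => ?_⟩
  have hγJ := hγ.mono hsub
  have hmemJ : ∀ s ∈ Ioo (t - δ) (t + δ), γ s ∈ X := fun s hs => hmem s (hsub hs)
  obtain ⟨hcs, hc⟩ := gp_coord hp isOpen_Ioo hγJ hmemJ hch
  obtain ⟨hZs, hZp, hZe⟩ := (gp_mono hY hsub).coord isOpen_Ioo hγJ hmemJ hp hch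
  obtain ⟨hZs', hZp', hZe'⟩ := (gp_mono hY' hsub).coord isOpen_Ioo hγJ hmemJ hp hch
  have heq := R316.RGeo.isParallel_eqOn (geo_rgeo_isRiem hg hp) ordConnected_Ioo
    (fun s hs => ⟨(hc s hs).1, (hcs.contDiffAt (isOpen_Ioo.mem_nhds hs)).differentiableAt (by simp)⟩)
    hZp hZp'
    (fun s hs => (hZs.contDiffAt (isOpen_Ioo.mem_nhds hs)).differentiableAt (by simp))
    (fun s hs => (hZs'.contDiffAt (isOpen_Ioo.mem_nhds hs)).differentiableAt (by simp)) hr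
    (by
      show gpCo ψ _ (Y r) = gpCo ψ _ (Y' r)
      rw [hP])
  show Y r' = Y' r'
  rw [hZe r' hr', hZe' r' hr']
  exact congrArg _ (heq hr')

/-- local existence, on an interval which does not depend on the initial time and value. -/
theorem gp_exists_local (hX : IsMfd n X) (hg : IsMetricOn n X g) (hI : IsOpen I)
    (hγ : ContDiffOn ℝ ∞ γ I) (hmem : ∀ t ∈ I, γ t ∈ X) {t₁ : ℝ} (ht₁ : t₁ ∈ I) :
    ∃ δ > 0, Ioo (t₁ - δ) (t₁ + δ) ⊆ I ∧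
      ∀ t ∈ Ioo (t₁ - δ) (t₁ + δ), ∀ e ∈ if_Tan n X (γ t),
        ∃ Y : ℝ → V, IsPar n X g γ Y (Ioo (t₁ - δ) (t₁ + δ)) ∧ Y t = e := by
  obtain ⟨ψ, U, hp, hx⟩ := hX _ (hmem t₁ ht₁)
  obtain ⟨δ, hδ, hsub, hch⟩ := gp_chart_nhds hI hγ.continuousOn hmem ht₁ hp hx
  refine ⟨δ, hδ, hsub, fun t ht e he => ?_⟩
  obtain ⟨hcs, hc⟩ := gp_coord hp isOpen_Ioo (hγ.mono hsub) (fun s hs => hmem s (hsub hs)) hch
  rw [← (hc t ht).2] at he
  obtain ⟨v, rfl⟩ := (if_tan_iff hp (hc t ht).1).1 he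
  obtain ⟨Z, hZs, hZp, hZt⟩ := (geo_rgeo_isRiem hg hp).exists_parallel isOpen_Ioo ordConnected_Ioo
    hcs (fun s hs => (hc s hs).1) ht v
  refine ⟨_, (isPar_of_isParallel hg hp isOpen_Ioo hcs (fun s hs => (hc s hs).1) hZs hZp).congr
    (fun s hs => ((hc s hs).2).symm) (fun s _ => rfl), ?_⟩
  beta_reduce
  rw [hZt]

/-- gluing of two parallel fields with a common value. -/
theorem IsPar.glue (hX : IsMfd n X) (hg : IsMetricOn n X g) {c d t₀ : ℝ}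
    (hγ : ContDiffOn ℝ ∞ γ (Ioo (min a c) (max b d)))
    (hmem : ∀ t ∈ Ioo (min a c) (max b d), γ t ∈ X)
    (hY : IsPar n X g γ Y (Ioo a b)) (hY' : IsPar n X g γ Y' (Ioo c d))
    (ht₀ : t₀ ∈ Ioo a b) (ht₀' : t₀ ∈ Ioo c d) (h0 : Y t₀ = Y' t₀) :
    ∃ F : ℝ → V, IsPar n X g γ F (Ioo (min a c) (max b d)) ∧
      EqOn F Y (Ioo a b) ∧ EqOn F Y' (Ioo c d) := by
  classical
  have hs1 : Ioo (max a c) (min b d) ⊆ Ioo a b := fun t ht =>
    ⟨(le_max_left _ _).trans_lt ht.1, ht.2.trans_le (min_le_left _ _)⟩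
  have hs2 : Ioo (max a c) (min b d) ⊆ Ioo c d := fun t ht =>
    ⟨(le_max_right _ _).trans_lt ht.1, ht.2.trans_le (min_le_right _ _)⟩
  have hs3 : Ioo a b ⊆ Ioo (min a c) (max b d) := fun t ht =>
    ⟨(min_le_left _ _).trans_lt ht.1, ht.2.trans_le (le_max_left _ _)⟩
  have hov : EqOn Y Y' (Ioo (max a c) (min b d)) :=
    (gp_mono hY hs1).eqOn hX hg isOpen_Ioo isPreconnected_Ioo (hγ.mono (hs1.trans hs3))
      (fun t ht => hmem t (hs3 (hs1 ht))) (gp_mono hY' hs2)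
      ⟨max_lt ht₀.1 ht₀'.1, lt_min ht₀.2 ht₀'.2⟩ h0
  have e1 : EqOn (fun t => if t ∈ Ioo a b then Y t else Y' t) Y (Ioo a b) :=
    fun t ht => if_pos ht
  have e2 : EqOn (fun t => if t ∈ Ioo a b then Y t else Y' t) Y' (Ioo c d) := by
    intro t ht
    show (if t ∈ Ioo a b then Y t else Y' t) = Y' t
    split_ifs with h'
    · exact hov ⟨max_lt h'.1 ht.1, lt_min h'.2 ht.2⟩
    · rfl
  refine ⟨fun t => if t ∈ Ioo a b then Y t else Y' t, IsPar.of_local fun t ht => ?_, e1, e2⟩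
  have hcase : t ∈ Ioo a b ∨ t ∈ Ioo c d := by
    rcases le_total t t₀ with hle | hle
    · rcases min_lt_iff.1 ht.1 with h' | h'
      · exact Or.inl ⟨h', hle.trans_lt ht₀.2⟩
      · exact Or.inr ⟨h', hle.trans_lt ht₀'.2⟩
    · rcases lt_max_iff.1 ht.2 with h' | h'
      · exact Or.inl ⟨ht₀.1.trans_le hle, h'⟩
      · exact Or.inr ⟨ht₀'.1.trans_le hle, h'⟩
  rcases hcase with h' | h'
  · exact ⟨_, isOpen_Ioo, h', hY.congr (fun _ _ => rfl) e1⟩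
  · exact ⟨_, isOpen_Ioo, h', hY'.congr (fun _ _ => rfl) e2⟩

/-- **existence of the parallel field with a prescribed value** along a smooth curve. -/
theorem gp_exists (hX : IsMfd n X) (hg : IsMetricOn n X g) (hI : IsOpen I)
    (hIc : IsPreconnected I) (hγ : ContDiffOn ℝ ∞ γ I) (hmem : ∀ t ∈ I, γ t ∈ X) {t₀ : ℝ}
    (ht₀ : t₀ ∈ I) {e : V} (he : e ∈ if_Tan n X (γ t₀)) :
    ∃ Y : ℝ → V, IsPar n X g γ Y I ∧ Y t₀ = e := by
  have key := gp_induction hI hIc (P := fun t => ∃ c d : ℝ, c < min t t₀ ∧ max t t₀ < d ∧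
    Ioo c d ⊆ I ∧ ∃ Y : ℝ → V, IsPar n X g γ Y (Ioo c d) ∧ Y t₀ = e) ht₀ ?_ ?_
  · choose! c d hc hd hsub F hF hF0 using key
    have hm : ∀ t ∈ I, t ∈ Ioo (c t) (d t) ∧ t₀ ∈ Ioo (c t) (d t) := fun t ht =>
      ⟨⟨(hc t ht).trans_le (min_le_left _ _), (le_max_left _ _).trans_lt (hd t ht)⟩,
        ⟨(hc t ht).trans_le (min_le_right _ _), (le_max_right _ _).trans_lt (hd t ht)⟩⟩
    have hcomp : ∀ t ∈ I, EqOn (fun s => F s s) (F t) (Ioo (c t) (d t)) := by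
      intro t ht s hs
      have hsI := hsub t ht hs
      have hs1 : Ioo (max (c s) (c t)) (min (d s) (d t)) ⊆ Ioo (c s) (d s) := fun r hr =>
        ⟨(le_max_left _ _).trans_lt hr.1, hr.2.trans_le (min_le_left _ _)⟩
      have hs2 : Ioo (max (c s) (c t)) (min (d s) (d t)) ⊆ Ioo (c t) (d t) := fun r hr =>
        ⟨(le_max_right _ _).trans_lt hr.1, hr.2.trans_le (min_le_right _ _)⟩
      exact (gp_mono (hF s hsI) hs1).eqOn hX hg isOpen_Ioo isPreconnected_Ioo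
        (hγ.mono (hs1.trans (hsub s hsI))) (fun r hr => hmem r (hsub s hsI (hs1 hr)))
        (gp_mono (hF t ht) hs2)
        (t₀ := t₀) ⟨max_lt (hm s hsI).2.1 (hm t ht).2.1, lt_min (hm s hsI).2.2 (hm t ht).2.2⟩
        (by rw [hF0 s hsI, hF0 t ht]) ⟨max_lt (hm s hsI).1.1 hs.1, lt_min (hm s hsI).1.2 hs.2⟩
    refine ⟨fun s => F s s, IsPar.of_local fun t ht => ?_, hF0 t₀ ht₀⟩
    exact ⟨_, isOpen_Ioo, (hm t ht).1, (hF t ht).congr (fun _ _ => rfl) (hcomp t ht)⟩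
  · obtain ⟨δ, hδ, hsub, H⟩ := gp_exists_local hX hg hI hγ hmem ht₀
    obtain ⟨Y, hY, hY0⟩ := H t₀ ⟨by linarith, by linarith⟩ e he
    exact ⟨t₀ - δ, t₀ + δ, by simpa using hδ, by simpa using hδ, hsub, Y, hY, hY0⟩
  · intro t ht
    obtain ⟨δ, hδ, hsub, H⟩ := gp_exists_local hX hg hI hγ hmem ht
    refine ⟨δ, hδ, fun s hs s' hs' hsI _ hP => ?_⟩
    obtain ⟨c, d, hc, hd, hcd, Y, hY, hY0⟩ := hP
    have hsc : s ∈ Ioo c d :=
      ⟨hc.trans_le (min_le_left _ _), (le_max_left _ _).trans_lt hd⟩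
    have ht₀c : t₀ ∈ Ioo c d :=
      ⟨hc.trans_le (min_le_right _ _), (le_max_right _ _).trans_lt hd⟩
    obtain ⟨Y', hY', hY's⟩ := H s hs (Y s) (hY.2.1 s hsc)
    have hbig : Ioo (min c (t - δ)) (max d (t + δ)) ⊆ I := by
      intro r hr
      rcases le_total r s with hle | hle
      · rcases min_lt_iff.1 hr.1 with h' | h'
        · exact hcd ⟨h', hle.trans_lt hsc.2⟩
        · exact hsub ⟨h', hle.trans_lt hs.2⟩
      · rcases lt_max_iff.1 hr.2 with h' | h'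
        · exact hcd ⟨hsc.1.trans_le hle, h'⟩
        · exact hsub ⟨hs.1.trans_le hle, h'⟩
    obtain ⟨F, hF, hFY, -⟩ := hY.glue hX hg (hγ.mono hbig) (fun r hr => hmem r (hbig hr)) hY' hsc hs
      hY's.symm
    refine ⟨min c (t - δ), max d (t + δ), ?_, ?_, hbig, F, hF, by rw [hFY ht₀c, hY0]⟩
    · exact lt_min ((min_le_right _ _).trans_lt hs'.1) ((min_le_left _ _).trans_lt ht₀c.1)
    · exact max_lt (hs'.2.trans_le (le_max_right _ _)) (ht₀c.2.trans_le (le_max_left _ _))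

/-! ### 3. properties -/

/-- parallel transport is isometric. -/
theorem IsPar.g_const (hX : IsMfd n X) (hg : IsMetricOn n X g) (hI : IsOpen I)
    (hIc : IsPreconnected I) (hγ : ContDiffOn ℝ ∞ γ I) (hmem : ∀ t ∈ I, γ t ∈ X)
    (hY : IsPar n X g γ Y I) (hY' : IsPar n X g γ Y' I) {s t : ℝ} (hs : s ∈ I) (ht : t ∈ I) :
    g (γ s) (Y s) (Y' s) = g (γ t) (Y t) (Y' t) := by
  refine (gp_induction hI hIc
    (P := fun r => g (γ r) (Y r) (Y' r) = g (γ s) (Y s) (Y' s)) hs rfl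
    (fun t₁ ht₁ => ?_) t ht).symm
  obtain ⟨ψ, U, hp, hx⟩ := hX _ (hmem t₁ ht₁)
  obtain ⟨δ, hδ, hsub, hch⟩ := gp_chart_nhds hI hγ.continuousOn hmem ht₁ hp hx
  refine ⟨δ, hδ, fun r hr r' hr' _ _ hP => ?_⟩
  have hγJ := hγ.mono hsub
  have hmemJ : ∀ s ∈ Ioo (t₁ - δ) (t₁ + δ), γ s ∈ X := fun s hs => hmem s (hsub hs)
  obtain ⟨hcs, hc⟩ := gp_coord hp isOpen_Ioo hγJ hmemJ hch
  obtain ⟨hZs, hZp, hZe⟩ := (gp_mono hY hsub).coord isOpen_Ioo hγJ hmemJ hp hch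
  obtain ⟨hZs', hZp', hZe'⟩ := (gp_mono hY' hsub).coord isOpen_Ioo hγJ hmemJ hp hch
  have hG := hZp.G_const (geo_rgeo_isRiem hg hp) ordConnected_Ioo
    (fun s hs => ⟨(hc s hs).1, (hcs.contDiffAt (isOpen_Ioo.mem_nhds hs)).differentiableAt (by simp)⟩)
    hZp'
    (fun s hs => (hZs.contDiffAt (isOpen_Ioo.mem_nhds hs)).differentiableAt (by simp))
    (fun s hs => (hZs'.contDiffAt (isOpen_Ioo.mem_nhds hs)).differentiableAt (by simp)) hr hr'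
  have hval : ∀ q ∈ Ioo (t₁ - δ) (t₁ + δ), g (γ q) (Y q) (Y' q) =
      (rgeo g ψ U).G ((invFunOn ψ U ∘ γ) q) (gpCo ψ ((invFunOn ψ U ∘ γ) q) (Y q))
        (gpCo ψ ((invFunOn ψ U ∘ γ) q) (Y' q)) := by
    intro q hq
    show _ = if_bil (cm g ψ _) _ _
    rw [if_cm_bil, ← hZe q hq, ← hZe' q hq, (hc q hq).2]
  show g (γ r') (Y r') (Y' r') = _
  rw [hval r' hr', ← hG, ← hval r hr]
  exact hP

theorem IsPar.add (hX : IsMfd n X) (hg : IsMetricOn n X g) (hI : IsOpen I)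
    (hγ : ContDiffOn ℝ ∞ γ I) (hmem : ∀ t ∈ I, γ t ∈ X)
    (hY : IsPar n X g γ Y I) (hY' : IsPar n X g γ Y' I) :
    IsPar n X g γ (fun t => Y t + Y' t) I := by
  refine IsPar.of_local fun t₁ ht₁ => ?_
  obtain ⟨ψ, U, hp, hx⟩ := hX _ (hmem t₁ ht₁)
  obtain ⟨δ, hδ, hsub, hch⟩ := gp_chart_nhds hI hγ.continuousOn hmem ht₁ hp hx
  refine ⟨Ioo (t₁ - δ) (t₁ + δ), isOpen_Ioo, ⟨by linarith, by linarith⟩, ?_⟩
  have hγJ := hγ.mono hsub
  have hmemJ : ∀ s ∈ Ioo (t₁ - δ) (t₁ + δ), γ s ∈ X := fun s hs => hmem s (hsub hs)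
  obtain ⟨hcs, hc⟩ := gp_coord hp isOpen_Ioo hγJ hmemJ hch
  obtain ⟨hZs, hZp, hZe⟩ := (gp_mono hY hsub).coord isOpen_Ioo hγJ hmemJ hp hch
  obtain ⟨hZs', hZp', hZe'⟩ := (gp_mono hY' hsub).coord isOpen_Ioo hγJ hmemJ hp hch
  refine (isPar_of_isParallel hg hp isOpen_Ioo hcs (fun s hs => (hc s hs).1) (hZs.add hZs')
    (hZp.add hZp'
      (fun s hs => (hZs.contDiffAt (isOpen_Ioo.mem_nhds hs)).differentiableAt (by simp))
      (fun s hs => (hZs'.contDiffAt (isOpen_Ioo.mem_nhds hs)).differentiableAt (by simp)))).congr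
    (fun s hs => ((hc s hs).2).symm) fun s hs => ?_
  beta_reduce
  rw [map_add, ← hZe s hs, ← hZe' s hs]

theorem IsPar.smul (hX : IsMfd n X) (hg : IsMetricOn n X g) (hI : IsOpen I)
    (hγ : ContDiffOn ℝ ∞ γ I) (hmem : ∀ t ∈ I, γ t ∈ X)
    (hY : IsPar n X g γ Y I) (r : ℝ) :
    IsPar n X g γ (fun t => r • Y t) I := by
  refine IsPar.of_local fun t₁ ht₁ => ?_
  obtain ⟨ψ, U, hp, hx⟩ := hX _ (hmem t₁ ht₁)
  obtain ⟨δ, hδ, hsub, hch⟩ := gp_chart_nhds hI hγ.continuousOn hmem ht₁ hp hx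
  refine ⟨Ioo (t₁ - δ) (t₁ + δ), isOpen_Ioo, ⟨by linarith, by linarith⟩, ?_⟩
  have hγJ := hγ.mono hsub
  have hmemJ : ∀ s ∈ Ioo (t₁ - δ) (t₁ + δ), γ s ∈ X := fun s hs => hmem s (hsub hs)
  obtain ⟨hcs, hc⟩ := gp_coord hp isOpen_Ioo hγJ hmemJ hch
  obtain ⟨hZs, hZp, hZe⟩ := (gp_mono hY hsub).coord isOpen_Ioo hγJ hmemJ hp hch
  refine (isPar_of_isParallel hg hp isOpen_Ioo hcs (fun s hs => (hc s hs).1) (hZs.const_smul r)
    (hZp.const_smul r)).congr (fun s hs => ((hc s hs).2).symm) fun s hs => ?_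
  beta_reduce
  rw [map_smul, ← hZe s hs]

/-! ### 4. the exits -/

/-- **GEO-15** -/
theorem gp_par_exists (hX : IsMfd n X) (hg : IsMetricOn n X g)
    (hγ : IsGeo n X g γ (Ioo a b)) {t₀ : ℝ} (ht₀ : t₀ ∈ Ioo a b) {e : V}
    (he : e ∈ if_Tan n X (γ t₀)) : ∃ Y : ℝ → V, IsPar n X g γ Y (Ioo a b) ∧ Y t₀ = e :=
  gp_exists hX hg isOpen_Ioo isPreconnected_Ioo hγ.1 hγ.2.1 ht₀ he

/-- **GEO-15'** -/
theorem gp_par_exists_univ (hX : IsMfd n X) (hg : IsMetricOn n X g)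
    (hγ : IsGeo n X g γ univ) (t₀ : ℝ) {e : V} (he : e ∈ if_Tan n X (γ t₀)) :
    ∃ Y : ℝ → V, IsPar n X g γ Y univ ∧ Y t₀ = e :=
  gp_exists hX hg isOpen_univ isPreconnected_univ hγ.1 hγ.2.1 (mem_univ t₀) he

/-- **GEO-16** -/
theorem gp_inner_const (hX : IsMfd n X) (hg : IsMetricOn n X g)
    (hγ : IsGeo n X g γ (Ioo a b)) (hY : IsPar n X g γ Y (Ioo a b))
    (hY' : IsPar n X g γ Y' (Ioo a b)) {s t : ℝ} (hs : s ∈ Ioo a b) (ht : t ∈ Ioo a b) :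
    g (γ s) (Y s) (Y' s) = g (γ t) (Y t) (Y' t) :=
  hY.g_const hX hg isOpen_Ioo isPreconnected_Ioo hγ.1 hγ.2.1 hY' hs ht

end Claimed.Agent.R314
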