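import Claimed.Agent.R314.Geo.Basic
import Claimed.Agent.R314.Bus.Seg
import Claimed.Agent.R314.C.Geo.Chart
import Claimed.Agent.R314.C.GeoLocB
import Claimed.Agent.R314.C.GeoLocD
import Claimed.Agent.R314.C.Geo.Par
import Claimed.Agent.R314.C.Geo.Lift
import Claimed.Agent.R314.C.Geo.Ext
import Claimed.Agent.R314.Geo.ParB

/-!
# Row 314, block C, package GEO (architect helper84): EXIT CONTRACTS  (statements: helper97, chief C)

Port of `R316/Base/{Metric,Geod}` to the language of `C/Defs.lean`; the chart calculus `R316/Base/RGeo/*` is imported as it is (`rgeo g ψ U`).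
The owner (helper84) replaces the `sorry`s by references to his internal files (change the imports of this file freely; keep the statements, or tell helper97).
Consumers: SV, BUS, REG', AFF import THIS file only.
HUB (captain 18:25Z): GEO-1 `rgeo_isRiem`, GEO-7 `IsGeo.eqOn`, `IsGeo.mono`, GEO-8 `IsGeo.comp_affine` (NO `hX hg` arguments), GEO-10 `IsGeo.speed_const` now live in `Geo/{Chart,Basic}.lean` (imported here).
NOT needed: continuity of `exp` in `(x, v)`, compactness of families of geodesics (ultrafilter limits of metric segments, `bus_limit`, replace both).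
-/

set_option autoImplicit false
set_option linter.unusedSectionVars false
open scoped ContDiff Topology
open Set Claims.C0499 Claimed.Agent.R315

namespace Claimed.Agent.R314

variable {V : Type} [NormedAddCommGroup V] [NormedSpace ℝ V] [FiniteDimensional ℝ V]
variable {n : ℕ} {X : Set V} {g : Ten V}

/-! ## the chart data -/

/-- **GEO-2** invariance of the sectional curvature numerator. -/
theorem secA_eq (hg : IsMetricOn n X g) {ψ : E n → V} {U : Set (E n)} (hp : IsParam X ψ U) {u : E n}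
    (hu : u ∈ U) (A B : E n) :
    secA n X g (ψ u) (fderiv ℝ ψ u A) (fderiv ℝ ψ u B) = (rgeo g ψ U).secNum u A B :=
  geo_secA_eq hg hp hu A B

/-! ## metric segments -/

/-- **GEO-3** (Hopf-Rinow, metric part). -/
theorem exists_seg (h : CM n X g) {x y : V} (hx : x ∈ X) (hy : y ∈ X) :
    ∃ c : ℝ → V, c 0 = x ∧ c (rdist X g x y) = y ∧ IsSeg X g c (Icc 0 (rdist X g x y)) :=
  bus_hasSeg h.busGeo x hx y hy

/-- **GEO-4** a metric segment is (the restriction of) a unit speed geodesic. -/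
theorem IsSeg.exists_geo (h : CM n X g) {c : ℝ → V} {a b : ℝ} (hab : a < b)
    (hc : IsSeg X g c (Icc a b)) :
    ∃ (γ : ℝ → V) (ε : ℝ), 0 < ε ∧ IsGeo n X g γ (Ioo (a - ε) (b + ε)) ∧ EqOn γ c (Icc a b) ∧
      ∀ t ∈ Ioo (a - ε) (b + ε), g (γ t) (deriv γ t) (deriv γ t) = 1 :=
  glc_seg h (fun _ _ hp _ _ hN _ hz _ hv => gl_rdist_rexp h.mfd h.conn.isPreconnected h.met hp
    (rgeo_isRiem h.met hp) hN hz hv) hab hc

/-- **GEO-5** a metric line is a unit speed geodesic. -/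
theorem IsSeg.isGeo_line (h : CM n X g) {c : ℝ → V} (hc : IsLine X g c) :
    IsGeo n X g c univ ∧ ∀ t, g (c t) (deriv c t) (deriv c t) = 1 :=
  glc_line h (fun _ _ hp _ _ hN _ hz _ hv => gl_rdist_rexp h.mfd h.conn.isPreconnected h.met hp
    (rgeo_isRiem h.met hp) hN hz hv) hc

/-! ## geodesics -/

/-- **GEO-6** completeness. -/
theorem geo_exists (h : CM n X g) {x v : V} (hx : x ∈ X) (hv : v ∈ if_Tan n X x) :
    ∃ γ : ℝ → V, IsGeo n X g γ univ ∧ γ 0 = x ∧ deriv γ 0 = v :=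
  gx_exists_univ h.mfd h.met h.proper hx hv

/-- **GEO-9** the velocity is tangent. -/
theorem IsGeo.deriv_mem_tan (hX : IsMfd n X) {γ : ℝ → V} {I : Set ℝ} (hγ : IsGeo n X g γ I)
    (hI : IsOpen I) {t : ℝ} (ht : t ∈ I) : deriv γ t ∈ if_Tan n X (γ t) :=
  hγ.deriv_tanAt hX hI ht

/-- **GEO-11** distance along a geodesic. -/
theorem IsGeo.rdist_le (hX : IsMfd n X) (hg : IsMetricOn n X g) {γ : ℝ → V}
    (hγ : IsGeo n X g γ univ) (s t : ℝ) :
    rdist X g (γ s) (γ t) ≤ |s - t| * Real.sqrt (g (γ 0) (deriv γ 0) (deriv γ 0)) :=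
  gx_rdist_le_univ hX hg hγ s t

/-! ## functions along geodesics -/

/-- **GEO-12** -/
theorem IsGeo.contDiffOn_comp (hX : IsMfd n X) {γ : ℝ → V} {I : Set ℝ} (hγ : IsGeo n X g γ I)
    (hI : IsOpen I) {s : V → ℝ} (hs : SmoothAlong n X s) : ContDiffOn ℝ ∞ (s ∘ γ) I :=
  glf_contDiffOn_comp hX hγ hI hs

/-- **GEO-13** first derivative. -/
theorem IsGeo.deriv_comp (hX : IsMfd n X) {γ : ℝ → V} {I : Set ℝ} (hγ : IsGeo n X g γ I)
    (hI : IsOpen I) {s : V → ℝ} (hs : SmoothAlong n X s) {t : ℝ} (ht : t ∈ I) :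
    deriv (s ∘ γ) t = tder n X s (γ t) (deriv γ t) :=
  glf_deriv_comp hX hγ hI hs ht

/-- **GEO-14** second derivative `= Hess s (γ', γ')`. -/
theorem IsGeo.deriv2_comp (hX : IsMfd n X) (hg : IsMetricOn n X g) {γ : ℝ → V} {I : Set ℝ}
    (hγ : IsGeo n X g γ I) (hI : IsOpen I) {s : V → ℝ} (hs : SmoothAlong n X s) {t : ℝ} (ht : t ∈ I)
    {ψ : E n → V} {U : Set (E n)} (hp : IsParam X ψ U) {u : E n} (hu : u ∈ U) (hut : ψ u = γ t)
    {A : E n} (hA : fderiv ℝ ψ u A = deriv γ t) :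
    deriv (deriv (s ∘ γ)) t = (rgeo g ψ U).hess (s ∘ ψ) u A A :=
  glf_deriv2_comp hX hg hγ hI hs ht hp hu hut hA

/-! ## parallel transport along geodesics -/

theorem IsPar.mono {γ Y : ℝ → V} {I I' : Set ℝ} (hY : IsPar n X g γ Y I) (hsub : I' ⊆ I) :
    IsPar n X g γ Y I' :=
  ⟨hY.1.mono hsub, fun t ht => hY.2.1 t (hsub ht),
    fun ψ U hp c e J hJ hJo hc => hY.2.2 ψ U hp c e J (hJ.trans hsub) hJo hc⟩

/-- **GEO-15** existence. -/
theorem par_exists (hX : IsMfd n X) (hg : IsMetricOn n X g) {γ : ℝ → V} {a b : ℝ}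
    (hγ : IsGeo n X g γ (Ioo a b)) {t₀ : ℝ} (ht₀ : t₀ ∈ Ioo a b) {e : V}
    (he : e ∈ if_Tan n X (γ t₀)) : ∃ Y : ℝ → V, IsPar n X g γ Y (Ioo a b) ∧ Y t₀ = e :=
  gp_par_exists hX hg hγ ht₀ he

/-- **GEO-15'** existence along a complete geodesic (glue the fields on `Ioo (t₀ - k) (t₀ + k)`, uniqueness). -/
theorem par_exists_univ (hX : IsMfd n X) (hg : IsMetricOn n X g) {γ : ℝ → V}
    (hγ : IsGeo n X g γ univ) (t₀ : ℝ) {e : V} (he : e ∈ if_Tan n X (γ t₀)) :
    ∃ Y : ℝ → V, IsPar n X g γ Y univ ∧ Y t₀ = e :=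
  gp_par_exists_univ hX hg hγ t₀ he

/-- **GEO-16** the inner product of parallel fields is constant. -/
theorem IsPar.inner_const (hX : IsMfd n X) (hg : IsMetricOn n X g) {γ Y Y' : ℝ → V} {a b : ℝ}
    (hγ : IsGeo n X g γ (Ioo a b)) (hY : IsPar n X g γ Y (Ioo a b))
    (hY' : IsPar n X g γ Y' (Ioo a b)) {s t : ℝ} (hs : s ∈ Ioo a b) (ht : t ∈ Ioo a b) :
    g (γ s) (Y s) (Y' s) = g (γ t) (Y t) (Y' t) :=
  gp_inner_const hX hg hγ hY hY' hs ht

/-- **GEO-17** the velocity of a geodesic is parallel. -/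
theorem IsGeo.isPar_deriv (hX : IsMfd n X) (hg : IsMetricOn n X g) {γ : ℝ → V} {I : Set ℝ}
    (hI : IsOpen I) (hγ : IsGeo n X g γ I) : IsPar n X g γ (deriv γ) I :=
  gpb_isPar_deriv hX hI hγ

/-- **GEO-18** the curvature term along a geodesic is continuous. -/
theorem IsPar.continuousOn_secA (hX : IsMfd n X) (hg : IsMetricOn n X g) {γ Y : ℝ → V} {I : Set ℝ}
    (hI : IsOpen I) (hγ : IsGeo n X g γ I) (hY : IsPar n X g γ Y I) :
    ContinuousOn (fun t => secA n X g (γ t) (Y t) (deriv γ t)) I :=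
  gpb_continuousOn_secA hX hg hI hγ hY

end Claimed.Agent.R314
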